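import Crest.Agent.X212.Alg36.Cut2a
import Crest.Agent.X212.Cut21.Leaf

-- ▼ part X212/Alg36/Cut2b
section

/-! CUT2 (helper36): the values of the thickened surface `thk`; the conditions for `Nice`. -/

set_option autoImplicit false
set_option linter.unusedSectionVars false

namespace Crest.Agent.X212.Alg36

open Finset Classical
open Crest.Agent.X212.Hp13
open Crest.Agent.X212.Kh11 (WS sctr_min sctr_max)
open Crest.Agent.X212.Cut21 (pot pot_ge thk rf dep dT JK BR om_dn)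

variable {P : Type} [PartialOrder P] [Fintype P] {A : Set P} {w : P → P → ℤ}

theorem pot_ch {G : Type} [AddCommGroup G] {w : P → P → G} (hw : Coc A w) {c : Ch P}
    (hd : Dom A c) {o x y : P} (ho : o ∈ c.1) (hx : x ∈ c.1) (hy : y ∈ c.1) (h : x ≤ y) :
    w x y = pot w o y - pot w o x := by
  unfold pot
  by_cases a : o ≤ x
  · rw [if_pos a, if_pos (a.trans h), hw.add' hd ho hx hy a h]; abel
  have a' := (c.total ho hx).resolve_left a
  by_cases b : o ≤ y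
  · rw [if_neg a, if_pos b, hw.add' hd hx ho hy a' b]; abel
  · rw [if_neg a, if_neg b, hw.add' hd hx hy ho h ((c.total ho hy).resolve_left b)]; abel

theorem pot_mono (hw : Coc A w) (hm : Mono A w) {c : Ch P} (hd : Dom A c) {o x y : P}
    (ho : o ∈ c.1) (hx : x ∈ c.1) (hy : y ∈ c.1) (h : x ≤ y) : pot w o x ≤ pot w o y := by
  have := pot_ch hw hd ho hx hy h
  have := hm _ _ (hd.dp hx hy h)
  omega

theorem pot_self (hw : Coc A w) {c : Ch P} (hd : Dom A c) {o : P} (ho : o ∈ c.1) :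
    pot w o o = 0 := (pot_ge w le_rfl).trans (Kh11.dom_self hw hd ho)

/-- the value of a vertex of the second subdivision -/
noncomputable def mv (A : Set P) (w : P → P → ℤ) (o : P) (d : Ch P) : ℤ :=
  if d.top ∈ A then pot w o d.bot else pot w o d.top

/-- the potential of `thk` -/
noncomputable def sv (A : Set P) (w : P → P → ℤ) (o : P) (C : Ch (Ch P)) : ℤ :=
  C.1.sup' C.2.1 (mv A w o)

theorem mv_in {o : P} {d : Ch P} (h : d.top ∈ A) : mv A w o d = pot w o d.bot := if_pos h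
theorem mv_out {o : P} {d : Ch P} (h : d.top ∉ A) : mv A w o d = pot w o d.top := if_neg h
theorem mv_pt (o p : P) : mv A w o (Ch.pt p) = pot w o p := by simp [mv]

theorem le_sv (o : P) {C : Ch (Ch P)} {d : Ch P} (h : d ∈ C.1) : mv A w o d ≤ sv A w o C :=
  le_sup' _ h

theorem sv_le {o : P} {C : Ch (Ch P)} {n : ℤ} : sv A w o C ≤ n ↔ ∀ d ∈ C.1, mv A w o d ≤ n :=
  sup'_le_iff _ _

theorem lt_sv {o : P} {C : Ch (Ch P)} {n : ℤ} : n < sv A w o C ↔ ∃ d ∈ C.1, n < mv A w o d :=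
  lt_sup'_iff _

theorem sv_mono (o : P) {C D : Ch (Ch P)} (h : C ≤ D) : sv A w o C ≤ sv A w o D :=
  sv_le.2 fun _ hd => le_sv o (h hd)

theorem mv_le_top (hw : Coc A w) (hm : Mono A w) {T d : Ch P} (hT : Dom A T) {o : P}
    (ho : o ∈ T.1) (h : d ≤ T) : mv A w o d ≤ pot w o d.top := by
  unfold mv
  split_ifs
  exacts [pot_mono hw hm hT ho (h d.bot_mem) (h d.top_mem) d.bot_le_top, le_rfl]

theorem dep_eq (hw : Coc A w) {T : Ch P} (hT : Dom A T) {o : P} (ho : o ∈ T.1) {C : Ch (Ch P)}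
    (h : C.top ≤ T) : dep (dT A w) w C = pot w o C.top.top - sv A w o C := by
  have k : ∀ d ∈ C.1, dT A w d + w d.top C.top.top = pot w o C.top.top - mv A w o d := by
    intro d hd
    have hd' : d ≤ T := (Ch.le_top hd).trans h
    rw [pot_ch hw hT ho (hd' d.top_mem) (h C.top.top_mem) (Ch.top_mono (Ch.le_top hd)), dT, mv]
    split_ifs
    · rw [pot_ch hw hT ho (hd' d.bot_mem) (hd' d.top_mem) d.bot_le_top]; ring
    · ring
  refine le_antisymm ?_ ((le_inf'_iff _ _).2 fun d hd => ?_)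
  · obtain ⟨d, hd, e⟩ := exists_mem_eq_sup' C.2.1 (mv A w o)
    exact (inf'_le _ hd).trans (by rw [k d hd, sv, e])
  · have := le_sv (A := A) (w := w) o hd
    rw [k d hd]; omega

theorem thk_eq (hw : Coc A w) {X C : Ch (Ch P)} (hT : Dom A C.top) {o : P} (ho : o ∈ C.top.1)
    (h : X ≤ C) : thk A w X C = sv A w o C - sv A w o X := by
  have h' := Ch.top_mono h
  simp only [thk, rf, Pi.sub_apply, pb, cb, Function.comp]
  rw [dep_eq hw hT ho le_rfl, dep_eq hw hT ho h',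
    pot_ch hw hT ho (h' X.top.top_mem) C.top.top_mem (Ch.top_mono h')]
  ring

theorem coc_thk (hw : Coc A w) : Coc (Ch.top ⁻¹' (Ch.top ⁻¹' A)) (thk A w) :=
  ((hw.pb Ch.top_mono).pb Ch.top_mono).sub (coc_cb _)

theorem dom2 {X C : Ch (Ch P)} (hX : X.top.top ∈ A) (h : Cm X C) : Dom A C.top :=
  dom_of_cm hX (h.map Ch.top_mono)

theorem mono_thk (hw : Coc A w) : Mono (Ch.top ⁻¹' (Ch.top ⁻¹' A)) (thk A w) := by
  rintro X C ⟨h, a, ha, -, c⟩
  rw [thk_eq hw (dom2 ha c) C.top.top_mem h]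
  exact sub_nonneg.2 (sv_mono _ h)

/-- the vertices with top in `A ∪ O₋` -/
def KK (A : Set P) : Set (Ch P) := {d | d.top ∈ A ∨ d.top ∈ Om A}

theorem om_of_le {a x : P} (ha : a ∈ A) (h : x ≤ a) (hx : x ∉ A) : x ∈ Om A := ⟨hx, a, ha, h⟩

theorem kk_of_le {C : Ch (Ch P)} (hC : C.top.top ∈ A) {d : Ch P} (h : d ≤ C.top) : d ∈ KK A :=
  (Classical.em _).imp id (om_of_le hC (Ch.top_mono h))

theorem mem_of_kk (hA : A.OrdConnected) {d e : Ch P} (hd : d.top ∈ A) (h : d ≤ e)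
    (he : e ∈ KK A) : e.top ∈ A :=
  he.elim id fun ⟨_, _, ha, k⟩ => hA.out hd ha ⟨Ch.top_mono h, k⟩

theorem tt_iff (hA : A.OrdConnected) {C : Ch (Ch P)} :
    C.top.top ∈ A ↔ (∀ d ∈ C.1, d ∈ KK A) ∧ Mt (Ch.top ⁻¹' A) C :=
  ⟨fun h => ⟨fun _ hd => kk_of_le h (Ch.le_top hd), _, C.top_mem, h⟩,
    fun ⟨h, _, hd, k⟩ => mem_of_kk hA k (Ch.le_top hd) (h _ C.top_mem)⟩

/-- a maximum under a point, at a fixed level -/
theorem thk_max (hA : A.OrdConnected) (hw : Coc A w) {a Y : Ch (Ch P)} (ha : a.top.top ∈ A)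
    (h : a ≤ Y) : ∃ m : Ch (Ch P), m.top.top ∈ A ∧ m ≤ Y ∧ thk A w m Y = thk A w a Y ∧
      ∀ b : Ch (Ch P), b.top.top ∈ A → b ≤ Y → thk A w b Y = thk A w a Y → b ≤ m := by
  have hT := dom2 ha (Or.inl h)
  have ho := Y.top.top_mem
  have s : ∀ b : Ch (Ch P), b.top.top ∈ A → b ≤ Y → sv A w Y.top.top b ≤ sv A w Y.top.top a →
      b.1 ⊆ Y.1.filter fun d => d ∈ KK A ∧ mv A w Y.top.top d ≤ sv A w Y.top.top a :=
    fun b hb k l d hd => mem_filter.2 ⟨k hd, kk_of_le hb (Ch.le_top hd), (le_sv _ hd).trans l⟩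
  have sa := s a ha h le_rfl
  let m := Y.sub _ (a.2.1.mono sa) (filter_subset _ _)
  have hm : m ≤ Y := filter_subset _ _
  refine ⟨m, mem_of_kk hA ha (Ch.top_mono (show a ≤ m from sa)) (mem_filter.1 m.top_mem).2.1, hm,
    ?_, fun b hb k e => s b hb k ?_⟩
  · rw [thk_eq hw hT ho hm, thk_eq hw hT ho h,
      le_antisymm (sv_le.2 fun d hd => (mem_filter.1 hd).2.2) (sv_mono _ (show a ≤ m from sa))]
  · rw [thk_eq hw hT ho k, thk_eq hw hT ho h] at e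
    omega

theorem ctr_over (hA : A.OrdConnected) (hN : Nice A) {X : Ch (Ch P)} (hX : X.top.top ∈ Om A)
    {Z : Set (Ch P)} (hZ : ∀ d : Ch P, d.top ∈ A → d ∈ Z) (hXZ : ∀ d ∈ X.1, d ∈ Z) :
    Ctr {C | X ≤ C ∧ (∀ d ∈ C.1, d ∈ Z) ∧ Mt (Ch.top ⁻¹' A) C} := by
  rw [meet X Z (Ch.top ⁻¹' A) fun d hd => ⟨hXZ d hd, (om_dn hA hX (Ch.top_mono (Ch.le_top hd))).1⟩]
  convert (ws_up X.top A).ctr_iff.2 (Nice.ctr_ge hA hN hX) using 1
  ext d
  exact ⟨fun k => ⟨(k.2.2 _ X.top_mem).resolve_left fun l =>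
    (om_dn hA hX (Ch.top_mono l)).1 k.1, k.1⟩,
    fun k => ⟨k.2, hZ d k.2, fun x hx => Or.inr ((Ch.le_top hx).trans k.1)⟩⟩

section low
variable (hA : A.OrdConnected) (hw : Coc A w) (hm : Mono A w) {X : Ch (Ch P)}
  (hX : X.top.top ∈ Om A)
include hA hw hm hX

/-- over a point of `O₋`: the value of `thk` -/
theorem thk_om (hj : JK A w) {b : Ch (Ch P)} (hb : b.top.top ∈ A) (h : X ≤ b) :
    0 ≤ thk A w X b ∧ thk A w X b ≤ 1 ∧ (0 < thk A w X b ↔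
      Mt {d : Ch P | d.top ∈ Om A ∧ X.top.top ≤ d.top ∧ 0 < w X.top.top d.top} b) := by
  have hT := dom2 hb Cm.rfl
  have hl := Ch.top_mono h
  have ho := hl X.top.top_mem
  have le0 : ∀ p ∈ b.top.1, p ≤ X.top.top → pot w X.top.top p ≤ 0 := fun p hp k =>
    (pot_mono hw hm hT ho hp ho k).trans_eq (pot_self hw hT ho)
  have e0 : sv A w X.top.top X = 0 := le_antisymm (sv_le.2 fun d hd =>
    (mv_le_top hw hm hT ho ((Ch.le_top hd).trans hl)).trans (le0 _ (hl (Ch.le_top hd d.top_mem))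
      (Ch.top_mono (Ch.le_top hd))))
    ((le_sv _ X.top_mem).trans' (by rw [mv_out hX.1, pot_self hw hT ho]))
  have k : ∀ d ∈ b.1, mv A w X.top.top d ≤ 0 ∨
      (d.top ∈ Om A ∧ X.top.top ≤ d.top ∧ mv A w X.top.top d = w X.top.top d.top) := by
    intro d hd
    have hd' := Ch.le_top hd
    by_cases a : d.top ∈ A
    · have : X.top ≤ d := (b.total (h X.top_mem) hd).resolve_right fun l =>
        (om_dn hA hX (Ch.top_mono l)).1 a
      exact Or.inl (mv_in a ▸ le0 _ (hd' d.bot_mem) (Ch.bot_le (this X.top.top_mem)))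
    · rw [mv_out a]
      exact (b.top.total (hd' d.top_mem) ho).imp (le0 _ (hd' d.top_mem)) fun l =>
        ⟨om_of_le hb (Ch.top_mono hd') a, l, pot_ge w l⟩
  rw [thk_eq hw hT ho h, e0, sub_zero]
  refine ⟨e0 ▸ sv_mono _ h, sv_le.2 fun d hd => ?_, lt_sv.trans ⟨fun ⟨d, hd, l⟩ => ?_,
    fun ⟨d, hd, l⟩ => ⟨d, hd, by rw [mv_out l.1.1, pot_ge w l.2.1]; exact l.2.2⟩⟩⟩
  · rcases k d hd with a | a
    · omega
    · exact a.2.2 ▸ hj _ _ (Or.inr a.1) a.2.1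
  · rcases k d hd with a | a
    · omega
    · exact ⟨d, hd, a.1, a.2.1, a.2.2 ▸ l⟩

theorem ctr_om (hN : Nice A) (hj : JK A w) (hr : BR A w) {a : Ch (Ch P)} (ha : a.top.top ∈ A)
    (h : X ≤ a) :
    Ctr {b : Ch (Ch P) | b.top.top ∈ A ∧ X ≤ b ∧ thk A w X b = thk A w X a} := by
  set S := {d : Ch P | d.top ∈ Om A ∧ X.top.top ≤ d.top ∧ 0 < w X.top.top d.top} with hS
  have H := fun b hb k => thk_om hA hw hm hX hj (b := b) hb k
  rw [← hS] at H
  have Ha := H a ha h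
  have om : ∀ D : Ch (Ch P), D.top.top ∈ Om A → ∀ d ∈ D.1, d.top ∈ Om A := fun D hD d hd =>
    om_dn hA hD (Ch.top_mono (Ch.le_top hd))
  by_cases h0 : Mt S a
  swap
  · convert ctr_over hA hN hX (Z := KK A \ S) (fun d hd => ⟨Or.inl hd, fun k => k.1.1 hd⟩)
      fun d hd => ⟨Or.inr (om X hX d hd), fun k => h0 ⟨d, h hd, k⟩⟩ using 1
    ext b
    refine ⟨fun ⟨hb, k, e⟩ => ⟨k, fun d hd => ⟨kk_of_le hb (Ch.le_top hd), fun l => ?_⟩,
      _, b.top_mem, hb⟩, fun ⟨k, l, m⟩ => ?_⟩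
    · exact h0 (Ha.2.2.1 (e ▸ (H b hb k).2.2.2 ⟨d, hd, l⟩))
    · have hb := (tt_iff hA).2 ⟨fun d hd => (l d hd).1, m⟩
      have Hb := H b hb k
      have n1 := mt Hb.2.2.1 fun ⟨d, hd, k⟩ => (l d hd).2 k
      have n2 := mt Ha.2.2.1 h0
      exact ⟨hb, k, by omega⟩
  have k : ∀ C : Ch (Ch P), ∃ D : Ch (Ch P), X ≤ C → D.1 = C.1.filter (·.top ∉ A) := fun C => by
    by_cases l : X ≤ C
    · exact ⟨C.sub _ ⟨_, mem_filter.2 ⟨l X.top_mem, hX.1⟩⟩ (filter_subset _ _), fun _ => rfl⟩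
    · exact ⟨C, fun k => absurd k l⟩
  choose f hf using k
  have mf : ∀ C, X ≤ C → ∀ d, d ∈ (f C).1 ↔ d ∈ C.1 ∧ d.top ∉ A := fun C l d => by
    rw [hf C l, mem_filter]
  have one := Ha.2.2.2 h0
  obtain ⟨d₀, -, k0⟩ := h0
  refine (WS.ctr_iff (f := f) ?_).2 ((ctr_up2 X {y | y ∈ Om A ∧ 0 < w X.top.top y}).2 (by
    convert hr _ hX _ k0.1 k0.2.1 k0.2.2 using 1
    ext; simp only [Set.mem_setOf_eq]; tauto))
  refine WS.of_ge (fun C hC => ?_) (fun C hC D hD l d hd => (mf D hD.2.1 d).2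
    ⟨l ((mf C hC.2.1 d).1 hd).1, ((mf C hC.2.1 d).1 hd).2⟩) fun D hD => ?_
  · obtain ⟨t1, t2⟩ := (mf C hC.2.1 _).1 (f C).top_mem
    obtain ⟨d, hd, l⟩ := (H C hC.1 hC.2.1).2.2.1 (hC.2.2 ▸ one)
    refine ⟨fun x hx => (mf C hC.2.1 x).2 ⟨hC.2.1 hx, (om X hX x hx).1⟩,
      om_of_le hC.1 (Ch.top_mono (Ch.le_top t1)) t2, ?_⟩
    have l1 := Ch.top_mono (Ch.le_top ((mf C hC.2.1 d).2 ⟨hd, l.1.1⟩))
    have := pot_mono hw hm (dom2 hC.1 Cm.rfl) (Ch.top_mono hC.2.1 X.top.top_mem)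
      (Ch.le_top hd d.top_mem) (Ch.le_top t1 (f C).top.top_mem) l1
    rw [pot_ge w l.2.1, pot_ge w (l.2.1.trans l1)] at this
    exact l.2.2.trans_le this
  · convert ctr_over hA hN hD.2.1 (Z := KK A) (fun d hd => Or.inl hd)
      fun d hd => Or.inr (om D hD.2.1 d hd) using 1
    ext b
    refine ⟨fun ⟨⟨hb, k, _⟩, l⟩ => ⟨fun d hd => ((mf b k d).1 (l hd)).1, (tt_iff hA).1 hb⟩,
      fun ⟨k, l⟩ => ?_⟩
    have hb := (tt_iff hA).2 l
    have k' := hD.1.trans k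
    have Hb := H b hb k'
    have := Hb.2.2.2 ⟨_, k D.top_mem, hD.2.1, Ch.top_mono (Ch.top_mono hD.1), hD.2.2⟩
    exact ⟨⟨hb, k', by omega⟩, fun d hd => (mf b k' d).2 ⟨k hd, (om D hD.2.1 d hd).1⟩⟩

end low

end Crest.Agent.X212.Alg36
end

-- ▼ part X212/Alg36/Cut2c
section

/-! CUT2 (helper36): the cut along a thickened surface is nice and thick. -/

set_option autoImplicit false
set_option linter.unusedSectionVars false

namespace Crest.Agent.X212.Alg36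

open Finset Classical
open Crest.Agent.X212.Hp13
open Crest.Agent.X212.Kh11 (WS sctr_min sctr_max)
open Crest.Agent.X212.Cut21 (pot pot_ge pot_le thk JK BR om_dn Fr Thick Cut2Stmt)

variable {P : Type} [PartialOrder P] [Fintype P] {A : Set P} {w : P → P → ℤ}

/-- the first vertex with top in `A` -/
theorem exists_first (hA : A.OrdConnected) {X : Ch (Ch P)} (hX : X.top.top ∈ A) :
    ∃ y ∈ X.1, y.top ∈ A ∧ (∀ x ∈ X.1, x.top ∈ A → y ≤ x) ∧
      ∀ x ∈ X.1, x.top ∉ A → x ≤ y ∧ ∀ p ∈ x.1, p ∉ A := by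
  let S := X.sub (X.1.filter (·.top ∈ A)) ⟨_, mem_filter.2 ⟨X.top_mem, hX⟩⟩ (filter_subset _ _)
  obtain ⟨h1, h2⟩ := mem_filter.1 S.bot_mem
  refine ⟨S.bot, h1, h2, fun x hx k => Ch.bot_le (c := S) (mem_filter.2 ⟨hx, k⟩),
    fun x hx k => ⟨(X.total hx h1).resolve_right fun l => k ?_, fun p hp => ?_⟩⟩
  · exact hA.out h2 hX ⟨Ch.top_mono l, Ch.top_mono (Ch.le_top hx)⟩
  · exact (om_dn hA (om_of_le hX (Ch.top_mono (Ch.le_top hx)) k) (Ch.le_top hp)).1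

theorem top_eq_of {C D : Ch P} (h : D ≤ C) (k : C.top ∈ D.1) : D.top = C.top :=
  le_antisymm (Ch.top_mono h) (Ch.le_top k)

section hi
variable (hA : A.OrdConnected) (hw : Coc A w) (hm : Mono A w) {X : Ch (Ch P)}
  (hX : X.top.top ∈ A)
include hA hw hm hX

theorem thk_up {C : Ch (Ch P)} (h : X ≤ C) :
    thk A w X C = sv A w X.top.top C - sv A w X.top.top X :=
  thk_eq hw (dom2 hX (Or.inl h)) (Ch.top_mono h X.top.top_mem) h

theorem umono {T : Ch P} (h : X.top ≤ T) {p q : P} (hp : p ∈ T.1) (hq : q ∈ T.1) (k : p ≤ q) :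
    pot w X.top.top p ≤ pot w X.top.top q :=
  pot_mono hw hm (dom_of_cm hX (Or.inl h)) (h X.top.top_mem) hp hq k

theorem mv_le {T d : Ch P} (h : X.top ≤ T) (k : d ≤ T) :
    mv A w X.top.top d ≤ pot w X.top.top d.top :=
  mv_le_top hw hm (dom_of_cm hX (Or.inl h)) (h X.top.top_mem) k

/-- vertices over a vertex of `X` with top in `A` are low -/
theorem low_of_ge {T x d : Ch P} (h : X.top ≤ T) (hx : x ∈ X.1) (k : x ≤ d) (hd : d ≤ T) :
    pot w X.top.top d.bot ≤ sv A w X.top.top X := by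
  have hx' := (Ch.le_top hx).trans h
  refine (umono hA hw hm hX h (hd d.bot_mem) (hx' x.bot_mem) (Ch.bot_anti k)).trans
    (le_trans ?_ (le_sv _ hx))
  unfold mv
  split_ifs
  exacts [le_rfl, umono hA hw hm hX h (hx' x.bot_mem) (hx' x.top_mem) x.bot_le_top]

theorem hi_le {b : Ch (Ch P)} (hb : b.top.top ∈ A) (h : X ≤ b) {d : Ch P} (hd : d ∈ b.1)
    (k : sv A w X.top.top X < mv A w X.top.top d) : d ≤ X.top :=
  (b.total hd (h X.top_mem)).resolve_right fun l => k.not_ge (by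
    rw [mv_in (hA.out hX hb ⟨Ch.top_mono l, Ch.top_mono (Ch.le_top hd)⟩)]
    exact low_of_ge hA hw hm hX (Ch.top_mono h) X.top_mem l (Ch.le_top hd))

theorem thk_le_one (hj : JK A w) {b : Ch (Ch P)} (hb : b.top.top ∈ A) (h : X ≤ b) :
    thk A w X b ≤ 1 := by
  rw [thk_up hA hw hm hX h, sub_le_iff_le_add', sv_le]
  intro d hd
  by_contra k
  have l := hi_le hA hw hm hX hb h hd (by omega)
  have h1 := mv_le hA hw hm hX le_rfl l
  have h2 := umono hA hw hm hX le_rfl (l d.top_mem) X.top.top_mem (Ch.top_mono l)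
  have h3 := le_sv (A := A) (w := w) X.top.top X.top_mem
  have h4 := hj _ _ (Or.inl hX) X.top.bot_le_top
  rw [pot_self hw (dom2 hX Cm.rfl) X.top.top_mem] at h2
  rw [mv_in hX, pot_le hw hX X.top.bot_le_top] at h3
  omega

/-- the insertable high vertices -/
theorem ctr_H {d₀ : Ch P} (h0 : d₀ ∈ {d : Ch P | d ∈ {d : Ch P | d ≤ X.top ∧
    sv A w X.top.top X < mv A w X.top.top d} ∧ d ∈ KK A ∧ ∀ x ∈ X.1, Cm d x}) :
    Ctr {d : Ch P | d ∈ {d : Ch P | d ≤ X.top ∧ sv A w X.top.top X < mv A w X.top.top d} ∧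
      d ∈ KK A ∧ ∀ x ∈ X.1, Cm d x} := by
  obtain ⟨y, hy, y1, y2, y3⟩ := exists_first hA hX
  have hyT := Ch.le_top hy
  set H := {d : Ch P | d ∈ {d : Ch P | d ≤ X.top ∧ sv A w X.top.top X < mv A w X.top.top d} ∧
      d ∈ KK A ∧ ∀ x ∈ X.1, Cm d x} with hH
  have um := fun p q => umono hA hw hm hX (p := p) (q := q) le_rfl
  have ley : ∀ d ∈ H, d ≤ y := fun d hd => (hd.2.2 y hy).resolve_right fun l => hd.1.2.not_ge (by
    rw [mv_in (mem_of_kk hA y1 l hd.2.1)]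
    exact low_of_ge hA hw hm hX le_rfl hy l hd.1.1)
  have hit : ∀ d ∈ H, sv A w X.top.top X < pot w X.top.top d.top := fun d hd =>
    hd.1.2.trans_le (mv_le hA hw hm hX le_rfl hd.1.1)
  by_cases hx : ∃ x ∈ X.1, x.top ∉ A
  · obtain ⟨x, hx, hx'⟩ := hx
    have out : ∀ d ∈ H, d.1 ⊆ y.1.filter (· ∉ A) := fun d hd p hp => by
      refine mem_filter.2 ⟨ley d hd hp, (om_dn hA (om_of_le y1 (Ch.top_mono (ley d hd))
        fun k => ?_) (Ch.le_top hp)).1⟩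
      rcases hd.2.2 x hx with l | l
      · exact hx' (hA.out k y1 ⟨Ch.top_mono l, Ch.top_mono (y3 x hx hx').1⟩)
      · exact hd.1.2.not_ge (mv_in k ▸ low_of_ge hA hw hm hX le_rfl hx l hd.1.1)
    let j := y.sub _ (d₀.2.1.mono (out d₀ h0)) (filter_subset _ _)
    have hj : j ≤ y := filter_subset _ _
    refine sctr_max (m := j) ⟨⟨hj.trans hyT, ?_⟩, kk_of_le hX (hj.trans hyT), fun t ht => ?_⟩ out
    · rw [mv_out (mem_filter.1 j.top_mem).2]
      exact (hit d₀ h0).trans_le (um _ _ (h0.1.1 d₀.top_mem) (hyT (hj j.top_mem))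
        (Ch.top_mono (show d₀ ≤ j from out d₀ h0)))
    · by_cases k : t.top ∈ A
      · exact Or.inl (hj.trans (y2 t ht k))
      · exact Or.inr fun p hp => mem_filter.2 ⟨(y3 t ht k).1 hp, (y3 t ht k).2 p hp⟩
  · push Not at hx
    have mem : ∀ d : Ch P, d ≤ y → (∀ p ∈ d.1, sv A w X.top.top X < pot w X.top.top p) → d ∈ H :=
      fun d k l => ⟨⟨k.trans hyT, by unfold mv; split_ifs; exacts [l _ d.bot_mem, l _ d.top_mem]⟩,
        kk_of_le hX (k.trans hyT), fun t ht => Or.inl (k.trans (y2 t ht (hx t ht)))⟩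
    have ws : WS {d : Ch P | d ≤ y ∧ ∀ p ∈ d.1, sv A w X.top.top X < pot w X.top.top p} H id :=
      WS.of_int' (fun d hd => mem d hd.1 hd.2) fun d hd =>
        ⟨d.sub (d.1.filter fun p => sv A w X.top.top X < pot w X.top.top p)
          ⟨_, mem_filter.2 ⟨d.top_mem, hit d hd⟩⟩ (filter_subset _ _),
          ⟨(filter_subset _ _).trans (ley d hd), fun p hp => (mem_filter.1 hp).2⟩,
          filter_subset _ _, fun b hb k p hp => mem_filter.2 ⟨k hp, hb.2 p hp⟩⟩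
    exact ws.ctr_iff.1 (sctr_max (m := y.sub
      (y.1.filter fun p => sv A w X.top.top X < pot w X.top.top p)
        ⟨_, mem_filter.2 ⟨ley d₀ h0 d₀.top_mem, hit d₀ h0⟩⟩ (filter_subset _ _))
      ⟨filter_subset _ _, fun p hp => (mem_filter.1 hp).2⟩
      fun b hb p hp => mem_filter.2 ⟨hb.1 hp, hb.2 p hp⟩)

theorem exists_hi {b : Ch (Ch P)} (hb : b.top.top ∈ A) (h : X ≤ b) (k : 0 < thk A w X b) :
    ∃ d ∈ b.1, d ≤ X.top ∧ sv A w X.top.top X < mv A w X.top.top d := by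
  rw [thk_up hA hw hm hX h, sub_pos, lt_sv] at k
  obtain ⟨d, hd, k⟩ := k
  exact ⟨d, hd, hi_le hA hw hm hX hb h hd k, k⟩

theorem ctr_hi {a : Ch (Ch P)} (ha : a.top.top ∈ A) (h : X ≤ a) (k : 0 < thk A w X a) :
    Ctr {b : Ch (Ch P) | b.top.top ∈ A ∧ X ≤ b ∧ 0 < thk A w X b} := by
  obtain ⟨d, hd, l⟩ := exists_hi hA hw hm hX ha h k
  convert (meet X (KK A) {d : Ch P | d ≤ X.top ∧ sv A w X.top.top X < mv A w X.top.top d}
    fun x hx => ⟨kk_of_le hX (Ch.le_top hx), fun k => k.2.not_ge (le_sv _ hx)⟩).2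
    (ctr_H hA hw hm hX ⟨l, kk_of_le ha (Ch.le_top hd), fun x hx => a.cm hd (h hx)⟩) using 1
  ext b
  refine ⟨fun ⟨hb, k, l⟩ => ⟨k, ((tt_iff hA).1 hb).1, exists_hi hA hw hm hX hb k l⟩,
    fun ⟨k, l, e, he, m⟩ => ⟨mem_of_kk hA hX (Ch.top_mono k) (l _ b.top_mem), k, ?_⟩⟩
  rw [thk_up hA hw hm hX k, sub_pos, lt_sv]
  exact ⟨e, he, m.2⟩

theorem conn_out (ht : Thick A) :
    Conn {Y : Ch (Ch P) | X ≤ Y ∧ (Y.top.top ∉ A ∨ 0 < thk A w X Y)} := by
  have c1 := (conn_up2 X Aᶜ).2 (ht.out _ hX)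
  have s1 : {C : Ch (Ch P) | X ≤ C ∧ C.top.top ∈ Aᶜ} ⊆
      {Y : Ch (Ch P) | X ≤ Y ∧ (Y.top.top ∉ A ∨ 0 < thk A w X Y)} := fun _ k => ⟨k.1, Or.inl k.2⟩
  have s2 : {b : Ch (Ch P) | b.top.top ∈ A ∧ X ≤ b ∧ 0 < thk A w X b} ⊆
      {Y : Ch (Ch P) | X ≤ Y ∧ (Y.top.top ∉ A ∨ 0 < thk A w X Y)} :=
    fun _ k => ⟨k.2.1, Or.inr k.2.2⟩
  have mixed : ∀ Y Z : Ch (Ch P), X ≤ Y → Y.top.top ∉ A → Z.top.top ∈ A → X ≤ Z →
      0 < thk A w X Z → Rch {Y : Ch (Ch P) | X ≤ Y ∧ (Y.top.top ∉ A ∨ 0 < thk A w X Y)} Z Y := by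
    intro Y Z y1 y2 z1 z2 z3
    obtain ⟨d, hd, l1, l2⟩ := exists_hi hA hw hm hX z1 z2 z3
    have cd : ∀ x ∈ X.1, Cm d x := fun x hx => Z.cm hd (z2 hx)
    have m1 : X.ins d cd ∈ {b : Ch (Ch P) | b.top.top ∈ A ∧ X ≤ b ∧ 0 < thk A w X b} :=
      ⟨by rwa [top_ins cd l1], X.le_ins _ _, by
        rw [thk_up hA hw hm hX (X.le_ins _ _), sub_pos, lt_sv]
        exact ⟨d, mem_insert_self _ _, l2⟩⟩
    have e : (X.ins d cd).top ≤ Y.top := by rw [top_ins cd l1]; exact Ch.top_mono y1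
    have ct : ∀ x ∈ (X.ins d cd).1, Cm Y.top x := fun x hx => Or.inr ((Ch.le_top hx).trans e)
    have m2 : (X.ins d cd).ins _ ct ∈ {C : Ch (Ch P) | X ≤ C ∧ C.top.top ∈ Aᶜ} :=
      ⟨(X.le_ins _ _).trans (Ch.le_ins _ _ _), by rwa [top_ins' ct e]⟩
    exact (((ctr_hi hA hw hm hX z1 z2 z3).conn _ ⟨z1, z2, z3⟩ _ m1).mono s2).trans
      ((Rch.of_cm (s2 m1) (s1 m2) (Or.inl (Ch.le_ins _ _ _))).trans ((c1 _ m2 _ ⟨y1, y2⟩).mono s1))
  intro Y hY Z hZ
  by_cases a : Y.top.top ∈ A <;> by_cases b : Z.top.top ∈ A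
  · have y := hY.2.resolve_left (not_not.2 a)
    exact ((ctr_hi hA hw hm hX a hY.1 y).conn _ ⟨a, hY.1, y⟩ _
      ⟨b, hZ.1, hZ.2.resolve_left (not_not.2 b)⟩).mono s2
  · exact mixed Z Y hZ.1 b a hY.1 (hY.2.resolve_left (not_not.2 a))
  · exact (mixed Y Z hY.1 a b hZ.1 (hZ.2.resolve_left (not_not.2 b))).symm
  · exact (c1 _ ⟨hY.1, a⟩ _ ⟨hZ.1, b⟩).mono s1

theorem ctr_inn (ht : Thick A) : Ctr {C : Ch (Ch P) | X ≤ C ∧
    ∀ Y, C ≤ Y → Y.top.top ∈ A ∧ thk A w X Y = 0} := by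
  obtain ⟨y, hy, y1, y2, y3⟩ := exists_first hA hX
  have hyT := Ch.le_top hy
  have yb := low_of_ge hA hw hm hX le_rfl hy le_rfl hyT
  let l := y.sub (y.1.filter fun p => pot w X.top.top p ≤ sv A w X.top.top X)
    ⟨_, mem_filter.2 ⟨y.bot_mem, yb⟩⟩ (filter_subset _ _)
  let k := y.sub (y.1.filter fun p => p ∈ A ∨ pot w X.top.top p ≤ sv A w X.top.top X)
    ⟨_, mem_filter.2 ⟨y.top_mem, Or.inl y1⟩⟩ (filter_subset _ _)
  have lk : l ≤ k := fun p hp => mem_filter.2 ⟨(mem_filter.1 hp).1, Or.inr (mem_filter.1 hp).2⟩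
  have ky : k ≤ y := filter_subset _ _
  have kt : k.top ∈ A := by
    rw [top_eq_of ky (mem_filter.2 ⟨y.top_mem, Or.inl y1⟩)]; exact y1
  have xl : ∀ x ∈ X.1, y ≤ x ∨ x ≤ l := fun x hx => by
    by_cases a : x.top ∈ A
    · exact Or.inl (y2 x hx a)
    · refine Or.inr fun p hp => mem_filter.2 ⟨(y3 x hx a).1 hp, ?_⟩
      exact (umono hA hw hm hX le_rfl (Ch.le_top hx hp) (Ch.le_top hx x.top_mem)
        (Ch.le_top hp)).trans (mv_out (w := w) a ▸ le_sv _ hx)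
  have cl : ∀ x ∈ X.1, Cm l x := fun x hx => (xl x hx).imp ((lk.trans ky).trans) id
  have ck : ∀ x ∈ X.1, Cm k x := fun x hx => (xl x hx).imp ky.trans (·.trans lk)
  let E : Set P := {e | ∀ p, e ≤ p → p ∈ A}
  let F : Set (Ch (Ch P)) := {C | X ≤ C ∧ (∃ d ∈ C.1, d ≤ l) ∧ (∃ d ∈ C.1, d.top ∈ A ∧ d ≤ k) ∧
    C.top.top ∈ E}
  have up : IsUpperSet F := fun C D h ⟨a, ⟨d, hd, b⟩, ⟨e, he, c⟩, t⟩ =>
    ⟨a.trans h, ⟨d, h hd, b⟩, ⟨e, h he, c⟩, fun p hp =>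
      t p ((Ch.top_mono (Ch.top_mono h)).trans hp)⟩
  have e0 : {C : Ch (Ch P) | X ≤ C ∧ ∀ Y, C ≤ Y → Y.top.top ∈ A ∧ thk A w X Y = 0} = F := by
    ext C
    refine and_congr_right fun hC => ⟨fun H => ?_, fun ⟨⟨d, hd, b⟩, ⟨e, he, c⟩, t⟩ Y hY => ?_⟩
    · have hT := Ch.top_mono hC
      have hCA := (H C le_rfl).1
      have low : ∀ d (c : ∀ x ∈ C.1, Cm d x), mv A w X.top.top d ≤ sv A w X.top.top X :=
        fun d c => by
          have := (H _ (C.le_ins d c)).2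
          rw [thk_up hA hw hm hX (hC.trans (C.le_ins d c))] at this
          have := le_sv (A := A) (w := w) X.top.top (C := C.ins d c) (mem_insert_self _ _)
          omega
      refine ⟨⟨C.bot, C.bot_mem, fun p hp => mem_filter.2 ⟨Ch.bot_le (hC hy) hp, ?_⟩⟩, ?_,
        fun p hp => ?_⟩
      · exact mv_pt (A := A) (w := w) _ p ▸ low (Ch.pt p) fun x hx =>
          Or.inl (Ch.pt_le.2 (Ch.bot_le hx hp))
      · obtain ⟨u, hu, u1, u2, u3⟩ := exists_first hA hCA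
        refine ⟨u, hu, u1, fun p hp => mem_filter.2 ⟨u2 y (hC hy) y1 hp,
          or_iff_not_imp_left.2 fun a => ?_⟩⟩
        let j := u.sub (u.1.filter (· ∉ A)) ⟨p, mem_filter.2 ⟨hp, a⟩⟩ (filter_subset _ _)
        have hj : j ≤ u := filter_subset _ _
        have := low j fun x hx => by
          by_cases a : x.top ∈ A
          · exact Or.inl (hj.trans (u2 x hx a))
          · exact Or.inr fun q hq => mem_filter.2 ⟨(u3 x hx a).1 hq, (u3 x hx a).2 q hq⟩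
        rw [mv_out (mem_filter.1 j.top_mem).2] at this
        exact (umono hA hw hm hX hT (Ch.le_top hu hp) (Ch.le_top hu (hj j.top_mem))
          (Ch.le_top (c := j) (mem_filter.2 ⟨hp, a⟩))).trans this
      · have c1 : ∀ x ∈ C.top.1, Cm p x := fun x hx => Or.inr ((Ch.le_top hx).trans hp)
        have c2 : ∀ x ∈ C.1, Cm (C.top.ins p c1) x := fun x hx =>
          Or.inr ((Ch.le_top hx).trans (Ch.le_ins _ _ _))
        have := (H _ (C.le_ins _ c2)).1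
        rwa [top_ins' c2 (Ch.le_ins _ _ _), top_ins' c1 hp] at this
    · have hXY := hC.trans hY
      have hT := Ch.top_mono hXY
      have hYA := t _ (Ch.top_mono (Ch.top_mono hY))
      refine ⟨hYA, ?_⟩
      rw [thk_up hA hw hm hX hXY, sub_eq_zero]
      refine le_antisymm (sv_le.2 fun g hg => ?_) (sv_mono _ hXY)
      have g1 := mv_le hA hw hm hX hT (Ch.le_top hg)
      rcases Y.total hg (hY hd) with a | a
      · exact g1.trans (mem_filter.1 (b (a g.top_mem))).2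
      by_cases a' : g.top ∈ A
      · rw [mv_in a']
        exact (umono hA hw hm hX hT (Ch.le_top hg g.bot_mem) (Ch.le_top (hY hd) d.bot_mem)
          (Ch.bot_anti a)).trans (mem_filter.1 (b d.bot_mem)).2
      rcases Y.total hg (hY he) with a'' | a''
      · exact g1.trans ((mem_filter.1 (c.2 (a'' g.top_mem))).2.resolve_left a')
      · exact absurd (hA.out c.1 hYA ⟨Ch.top_mono a'', Ch.top_mono (Ch.le_top hg)⟩) a'
  have sub : ∀ (C : Ch (Ch P)) (m : Ch P), X ≤ C → m ≤ y → (∀ x ∈ X.1, Cm m x) →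
      ∃ D : Ch (Ch P), D ≤ C ∧ X ≤ D ∧ D.top = C.top ∧ ∀ x, x ∈ D.1 ↔ x ∈ C.1 ∧ Cm m x :=
    fun C m hC a b => by
      have s : X.1 ⊆ C.1.filter (Cm m) := fun x hx => mem_filter.2 ⟨hC hx, b x hx⟩
      exact ⟨C.sub _ (X.2.1.mono s) (filter_subset _ _), filter_subset _ _, s,
        top_eq_of (filter_subset _ _) (mem_filter.2 ⟨C.top_mem,
          Or.inl (a.trans (hyT.trans (Ch.top_mono hC)))⟩), fun x => mem_filter⟩
  rw [e0]
  refine (force_up up k fun C ⟨a, ⟨d, hd, b⟩, ⟨e, he, c⟩, t⟩ => ?_).ctr_iff.1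
    ((force_up (F := {C | C ∈ F ∧ k ∈ C.1}) (fun C D h a => ⟨up h a.1, h a.2⟩) l
      fun C ⟨⟨a, ⟨d, hd, b⟩, _, t⟩, c⟩ => ?_).ctr_iff.1 ?_)
  · obtain ⟨D, h1, h2, h3, h4⟩ := sub C k a ky ck
    exact ⟨D, ⟨h2, ⟨d, (h4 d).2 ⟨hd, Or.inr (b.trans lk)⟩, b⟩,
      ⟨e, (h4 e).2 ⟨he, Or.inr c.2⟩, c⟩, h3 ▸ t⟩, h1, fun x hx => ((h4 x).1 hx).2⟩
  · obtain ⟨D, h1, h2, h3, h4⟩ := sub C l a (lk.trans ky) cl
    have := (h4 k).2 ⟨c, Or.inl lk⟩
    exact ⟨D, ⟨⟨h2, ⟨d, (h4 d).2 ⟨hd, Or.inr b⟩, b⟩, ⟨k, this, kt, le_rfl⟩, h3 ▸ t⟩, this⟩, h1,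
      fun x hx => ((h4 x).1 hx).2⟩
  have cl' : ∀ x ∈ (X.ins k ck).1, Cm l x := fun x hx => by
    rcases mem_insert.1 hx with rfl | hx
    exacts [Or.inl lk, cl x hx]
  have e1 : (X.ins k ck).top = X.top := top_ins ck (ky.trans hyT)
  have e2 : ((X.ins k ck).ins l cl').top = X.top := by
    rw [top_ins cl' (e1 ▸ (lk.trans ky).trans hyT), e1]
  have c2 : Ctr {e | e ∈ E ∧ X.top.top ≤ e} := by
    by_cases hf : X.top.top ∈ Fr A
    · convert ht.inn _ hf using 1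
      ext e
      exact ⟨fun a => ⟨a.1 e le_rfl, a.2, fun ⟨_, o, ho, b⟩ => ho (a.1 o b)⟩,
        fun a => ⟨fun p hp => by_contra fun n => a.2.2 ⟨a.1, p, n, hp⟩, a.2.1⟩⟩
    · exact sctr_min (m := X.top.top) ⟨fun p hp => by_contra fun n => hf ⟨hX, p, n, hp⟩, le_rfl⟩
        fun _ a => a.2
  convert (ctr_up2 ((X.ins k ck).ins l cl') E).2 (e2 ▸ c2) using 1
  ext C
  refine ⟨fun ⟨⟨a, b⟩, c⟩ => ⟨insert_subset c (insert_subset b a.1), a.2.2.2⟩, fun ⟨a, b⟩ => ?_⟩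
  have m1 : l ∈ C.1 := a (mem_insert_self _ _)
  have m2 : k ∈ C.1 := a (mem_insert_of_mem (mem_insert_self _ _))
  exact ⟨⟨⟨(X.le_ins _ _).trans ((Ch.le_ins _ _ _).trans a), ⟨l, m1, le_rfl⟩,
    ⟨k, m2, kt, le_rfl⟩, b⟩, m2⟩, m1⟩

end hi

theorem ctr_lev (hA : A.OrdConnected) (hw : Coc A w) (hm : Mono A w) (hN : Nice A) (hj : JK A w)
    (hr : BR A w) {a X : Ch (Ch P)} (ha : a.top.top ∈ A) (k : X ≤ a)
    (l : X.top.top ∉ A ∨ 0 < thk A w X a) :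
    Ctr {b : Ch (Ch P) | b.top.top ∈ A ∧ X ≤ b ∧ thk A w X b = thk A w X a} := by
  by_cases hX : X.top.top ∈ A
  · have l := l.resolve_left (not_not.2 hX)
    convert ctr_hi hA hw hm hX ha k l using 1
    ext b
    refine and_congr_right fun hb => and_congr_right fun k' => ?_
    have := thk_le_one hA hw hm hX hj ha k
    have := thk_le_one hA hw hm hX hj hb k'
    omega
  · exact ctr_om hA hw hm (om_of_le ha (Ch.top_mono (Ch.top_mono k)) hX) hN hj hr ha k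

/-- GOOD-CUT, part 2 -/
theorem cut2Stmt : Cut2Stmt := fun _ _ _ _ _ hs ht hw hm hj hr h =>
  ⟨nice_cut h (convex_pre Ch.top_mono (convex_pre Ch.top_mono hs.conv)) (coc_thk hw)
    (mono_thk hw) (fun _ ha _ k => thk_max hs.conv hw ha k)
      fun _ ha _ k l => ctr_lev hs.conv hw hm hs.nice hj hr ha k l,
    thick_cov h.cov (coc_thk hw) (mono_thk hw) (fun _ ha => ctr_inn hs.conv hw hm ha ht)
      fun _ ha => conn_out hs.conv hw hm ha ht⟩

end Crest.Agent.X212.Alg36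
end

-- ▼ part X212/Hlf24/Half

/-!
# X212 / Hlf24 (helper24): halving the jumps, thickening
-/

set_option autoImplicit false
set_option linter.unusedSectionVars false

open Finset Classical

noncomputable section

namespace Crest.Agent.X212.Hlf24

open Crest.Agent.X212.Hp13 Crest.Agent.X212.Alg36 Crest.Agent.X212.Cut21

section

variable {P : Type} [PartialOrder P] [Fintype P] {A : Set P} {z : P → P → ℤ} {δ : Ch P → ℤ}

/-- jumps from `O₋` into `A` are at most one -/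
def JM (A : Set P) (z : P → P → ℤ) : Prop := ∀ x, x ∉ A → ∀ a ∈ A, x ≤ a → z x a ≤ 1

theorem jk_of (h1 : JO A z) (h2 : JM A z) (h3 : JA A z 1) : JK A z := fun x y hy k =>
  hy.elim (fun hy => (Classical.em (x ∈ A)).elim (fun hx => h3 x hx y hy k) fun hx => h2 x hx y hy k)
    fun hy => h1 x y hy k

theorem conv2 (hA : A.OrdConnected) : (A2 A).OrdConnected :=
  convex_pre Ch.top_mono (convex_pre Ch.top_mono hA)

theorem jo_rf (h : InR A z δ) (hA : A.OrdConnected) (hz : Coc A z) (hm : Mono A z) (hj : JO A z) :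
    JO (A2 A) (rf δ z) := fun C D hD k => by
  obtain ⟨h1, E, hE, h2⟩ := hD
  rw [← (h.eqv hz hm).off (dp_hi hE k h2) (not_dn (conv2 hA) hE h2 h1 k) h1]
  exact hj _ _ ⟨h1, _, hE, Ch.top_mono (Ch.top_mono h2)⟩ (Ch.top_mono (Ch.top_mono k))

theorem jm_rf (hl : LowM A z δ) (h : InR A z δ) (hA : A.OrdConnected) (hz : Coc A z)
    (hm : Mono A z) (hj : JO A z) : JM (A2 A) (rf δ z) := fun X hX C hC k => by
  obtain ⟨M, m1, m2, m3, m4⟩ := hl.max h hA hz hm hC hX k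
  rw [(tri3 hC (m4 X hX k) m2).add (coc_rf hz δ), m3, add_zero]
  exact jo_rf h hA hz hm hj X M ⟨m1, C, hC, m2⟩ (m4 X hX k)

theorem ja_rf (h : InR A z δ) (hA : A.OrdConnected) (hz : Coc A z) (hm : Mono A z) {N : ℤ}
    (hN : ∀ d : Ch P, d.top ∈ A → δ d ≤ N ∧ z d.bot d.top - δ d ≤ N) : JA (A2 A) (rf δ z) N := by
  intro C hC D hD k
  have he : Dom A D.top := Mt.dom ⟨_, D.top.top_mem, hD⟩
  obtain ⟨u, hu⟩ := exists_chart hz he
  obtain ⟨d, hd, e⟩ := hu.ex_vv δ (C := D) le_rfl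
  have c1 : C.top ≤ D.top := Ch.top_mono k
  have d1 : d ≤ D.top := Ch.le_top hd
  have v := hu.le_vv (δ := δ) c1 C.top_mem
  rw [hu.rf le_rfl k, e]
  rcases D.total (k C.top_mem) hd with a | a
  · have h1 := (hN d (hA.out hC hD ⟨Ch.top_mono a, Ch.top_mono d1⟩)).2
    rw [hu _ (d1 d.bot_mem) _ (d1 d.top_mem) d.bot_le_top] at h1
    have h2 := hu.le hm he (d1 d.bot_mem) (c1 C.top.bot_mem) (Ch.bot_anti a)
    have h3 := h.le_mu he hu c1
    have h4 : mu δ u d = u d.top - δ d := rfl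
    omega
  · have h1 := (hN _ hC).1
    have h2 := hu.le hm he (d1 d.top_mem) (c1 C.top.top_mem) (Ch.top_mono a)
    have h3 := h.mu_le (u := u) he d1
    have h4 : mu δ u C.top = u C.top.top - δ C.top := rfl
    omega

end

theorem thkStmt : ThkStmt := fun _ _ hs hz hm hj =>
  jk_of (jo_rf (inR_dT hm) hs.conv hz hm hj.jo) (jm_rf lowM_dT (inR_dT hm) hs.conv hz hm hj.jo)
    (ja_rf (inR_dT hm) hs.conv hz hm fun d hd => by
      have := hj _ _ (Or.inl hd) d.bot_le_top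
      rw [dT, if_pos hd]; omega)

/-- the conclusion of `Half2Stmt` -/
def Out (s : St) (z : s.P → s.P → ℤ) : Prop :=
  ∃ t f w, Desc s t f ∧ Mono t.A w ∧ Eqv t.A (pb f z) w ∧ chi t.A w = chi s.A z ∧
    JK t.A w ∧ (NC s.A z → NC t.A w) ∧ (CondP s.A z → CondP t.A w)

theorem out_step {s : St} {z : s.P → s.P → ℤ} (hs : Good s) (hz : Coc s.A z) (hm : Mono s.A z)
    (h : Out s.sd.sd (hlv s.A z)) : Out s z := by
  obtain ⟨t, f, w, h1, h2, h3, h4, h5, h6, h7⟩ := h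
  obtain ⟨r1, -, r3, r4, r5⟩ := refStmt s z _ hs.conv (Good.sd (Good.sd hs)).mf hz hm (inR_dH hm)
  have r := r1.pb h1.mono
  rw [← h1.A_eq] at r
  exact ⟨t, _, w, (Desc.sd s).step.trans h1, h2, r.trans h3, h4.trans r3, h5,
    fun a => h6 (r4 a), fun a => h7 (r5 a)⟩

theorem out_ja (n : ℕ) : ∀ (s : St) (z : s.P → s.P → ℤ), Good s → Coc s.A z → Mono s.A z →
    JO s.A z → JM s.A z → JA s.A z (n + 1) → Out s z := by
  induction n with
  | zero =>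
    exact fun s z _ _ hm h1 h2 h3 =>
      ⟨s, id, z, .refl, hm, Eqv.rfl, rfl, jk_of h1 h2 (by simpa using h3), id, id⟩
  | succ n ih =>
    intro s z hs hz hm h1 h2 h3
    refine out_step hs hz hm (ih _ _ (Good.sd (Good.sd hs)) (coc_rf hz _) (mono_rf hz _)
      (jo_rf (inR_dH hm) hs.conv hz hm h1) (jm_rf lowM_dH (inR_dH hm) hs.conv hz hm h1)
      (ja_rf (inR_dH hm) hs.conv hz hm fun d hd => ?_))
    rw [dH, if_pos hd]
    split_ifs with hb
    · have := h3 _ hb _ hd d.bot_le_top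
      push_cast at this
      omega
    · have := h2 _ hb _ hd d.bot_le_top
      omega

theorem half2Stmt : Half2Stmt := fun s z hs hz hm h1 => by
  obtain ⟨N, hN⟩ := (Set.finite_range fun p : s.sd.sd.P × s.sd.sd.P => hlv s.A z p.1 p.2).bddAbove
  exact out_step hs hz hm (out_ja N.toNat _ _ (Good.sd (Good.sd hs)) (coc_rf hz _) (mono_rf hz _)
    (jo_rf (inR_dH hm) hs.conv hz hm h1) (jm_rf lowM_dH (inR_dH hm) hs.conv hz hm h1)
    fun x _ y _ _ => (hN ⟨(x, y), rfl⟩).trans (by omega))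

end Crest.Agent.X212.Hlf24
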